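import Vale.Agent.Results.P007.A_all_composite
import Vale.Agent.Results.P007.B_uniform

open Matrix Topology MeasureTheory Filter Set

namespace Vale.Agent.Results.P007.AAA_union

open Vale.Agent.Lib.P007

/-- The negative answer for every composite degree, together with the necessary condition uniform
over all fields and orders in every degree. -/
theorem result :
    (∀ n : ℕ, 4 ≤ n → ¬ n.Prime →
      ∃ (K : Type) (_ : Field K) (_ : NumberField K) (σ : Fin n → K →+* ℝ)
        (O : ℕ → Subring K) (b : ℕ → Fin n → K) (α : K),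
        Module.finrank ℚ K = n ∧ Function.Bijective σ ∧
        (∀ m, α ∈ O m) ∧
        (∀ m, 0 < m → IsZBasis (b m) (O m : Set K) ∧
          (Matrix.of fun i j => σ j (b m i)).det ≠ 0 ∧ (packetSet σ (O m)).Nonempty) ∧
        Tendsto (fun m : ℕ => (Matrix.of fun i j => σ j (b m i)).det ^ 2) atTop atTop ∧
        ∃ f : C(X n, ℝ), HasCompactSupport f ∧ (∀ x, 0 ≤ f x) ∧
          (∀ m₀ : Measure (X n), IsProbabilityMeasure m₀ → IsRightInvariant m₀ →
            0 < ∫ x, f x ∂m₀) ∧
          ∀ m, 0 < m → ∀ μ : Measure (X n), (∀ᵐ x ∂μ, x ∈ packetSet σ (O m)) →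
            ∫ x, f x ∂μ = 0) ∧
    (∀ (n : ℕ), n ≠ 0 → ∀ H : ℝ,
      (∃ f : C(X n, ℝ), HasCompactSupport f ∧ (∀ x, 0 ≤ f x) ∧
        (∀ m₀ : Measure (X n), IsProbabilityMeasure m₀ → IsRightInvariant m₀ →
          0 < ∫ x, f x ∂m₀) ∧
        ∀ (K : Type) [Field K] [NumberField K], Module.finrank ℚ K = n →
          ∀ σ : Fin n → K →+* ℝ, Function.Injective σ →
          ∀ (O : Subring K) (b : Fin n → K), IsZBasis b (O : Set K) →
          ∀ α ∈ O, α ∉ Set.range (Int.cast : ℤ → K) → (∀ j, |σ j α| ≤ H) →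
          ∀ μ : Measure (X n), (∀ᵐ x ∂μ, x ∈ packetSet σ O) → ∫ x, f x ∂μ = 0) ∧
      (n.Prime → ∃ C : ℝ,
        ∀ (K : Type) [Field K] [NumberField K], Module.finrank ℚ K = n →
          ∀ σ : Fin n → K →+* ℝ, Function.Injective σ →
          ∀ (O : Subring K) (b : Fin n → K), IsZBasis b (O : Set K) →
          ∀ α ∈ O, α ∉ Set.range (Int.cast : ℤ → K) → (∀ j, |σ j α| ≤ H) →
            (Matrix.of fun i j => σ j (b i)).det ^ 2 ≤ C)) :=
  ⟨fun n h4 hn => Vale.Agent.Results.P007.A_all_composite.result n h4 hn,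
    fun n hn H => Vale.Agent.Results.P007.B_uniform.result n hn H⟩

end Vale.Agent.Results.P007.AAA_union
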